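import Vale.Agent.P280B30.Rows
import Vale.Agent.P299G50.Hol

/-!
# P280B: the row `LBH`
-/

open scoped Manifold ContDiff Topology
open MvPolynomial Filter
open Vale.Agent.P272.K Vale.Agent.P285.H281.FD Vale.Agent.P300.Final Vale.Agent.P299G40
open Vale.Agent.P009.AV (aff)

namespace Vale.Agent.P280A

variable {n N : ℕ} {X : Type} [TopologicalSpace X] [ChartedSpace (Cm n) X]
  [IsManifold 𝓘(ℂ, Cm n) ω X] {Φ : X → PN N} {e : Chart n X} {x : X}

theorem l13_ne {P : MvPolynomial (Fin (N + 1)) ℂ} {d : ℕ} (hP : P.IsHomogeneous d) {z : PN N}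
    {i : Fin (N + 1)} (hi : z.rep i ≠ 0) : eval (aff i z) P ≠ 0 ↔ eval z.rep P ≠ 0 := by
  rw [P299G50.eval_aff hP, mul_ne_zero_iff, and_iff_right (pow_ne_zero _ (inv_ne_zero hi))]

theorem l13_ev (hΦ : IsProjectiveImmersion (Cm n) Φ) (h : At e x)
    {P : MvPolynomial (Fin (N + 1)) ℂ} {d : ℕ} (hP : P.IsHomogeneous d)
    (h0 : eval (Φ x).rep P ≠ 0) : ∀ᶠ z in 𝓝 (e x), eval (Φ (e.symm z)).rep P ≠ 0 := by
  obtain ⟨i, hi⟩ := Function.ne_iff.1 (Φ x).rep_nonzero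
  have h1 : eval (aff i (Φ (e.symm (e x)))) P ≠ 0 := by
    rw [h.left_inv]
    exact (l13_ne hP hi).2 h0
  filter_upwards [(P299G50.eval_holo hΦ h hi P).continuousAt.eventually_ne h1,
    (P299G50.aff_holo hΦ h hi).1] with z a b using (l13_ne hP b).1 a

theorem l13_open (hΦ : IsProjectiveImmersion (Cm n) Φ) {P : MvPolynomial (Fin (N + 1)) ℂ} {d : ℕ}
    (hP : P.IsHomogeneous d) (h0 : eval (Φ x).rep P ≠ 0) :
    ∀ᶠ y in 𝓝 x, eval (Φ y).rep P ≠ 0 := by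
  have h : At (chartAt (Cm n) x) x := ⟨chart_mem_atlas _ _, mem_chart_source _ _⟩
  filter_upwards [((chartAt (Cm n) x).continuousAt h.2).eventually (l13_ev hΦ h hP h0),
    (chartAt (Cm n) x).eventually_left_inverse h.2] with y a b
  rwa [b] at a

theorem lbh13 : LBH := by
  intro n N Z X _ _ _ Φ hA L
  have hΦ := hA.2.1
  have hmem : ∀ y, Φ y ∈ Z := fun y => hA.2.2 ▸ Set.mem_range_self y
  have ho : ∀ i, IsOpen (Φ ⁻¹' L.U i) := fun i => by
    obtain ⟨W, ⟨I, hI, hW⟩, hU⟩ := L.isOpen i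
    rw [hU]
    refine isOpen_iff_mem_nhds.2 fun x hx => ?_
    have h1 := mt (hW _).2 hx.2
    push Not at h1
    obtain ⟨P, hP, h0⟩ := h1
    obtain ⟨d, hd⟩ := hI P hP
    filter_upwards [l13_open hΦ hd h0] with y hy
    exact ⟨hmem y, fun h => hy ((hW _).1 h P hP)⟩
  refine ⟨ho, fun x => L.cover _ (hmem x), fun i j e x h hi hj => ?_,
    fun i j x hi hj => L.ne_zero i j _ ⟨hi, hj⟩,
    fun i j k x hi hj hk => L.cocycle i j k _ ⟨⟨hi, hj⟩, hk⟩⟩
  obtain ⟨P, Q, d, hP, hQ, h0, hPQ⟩ := L.regular i j _ ⟨hi, hj⟩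
  obtain ⟨l, hl⟩ := Function.ne_iff.1 (Φ x).rep_nonzero
  have hq : eval (aff l (Φ (e.symm (e x)))) Q ≠ 0 := by
    rw [h.left_inv]
    exact (l13_ne hQ hl).2 h0
  refine ((P299G50.eval_holo hΦ h hl P).div (P299G50.eval_holo hΦ h hl Q)
    hq).congr_of_eventuallyEq ?_
  have hc := e.continuousAt_symm h.mem_target
  rw [ContinuousAt, h.left_inv] at hc
  filter_upwards [hc.eventually (((ho i).inter (ho j)).mem_nhds ⟨hi, hj⟩), l13_ev hΦ h hQ h0,
    (P299G50.aff_holo hΦ h hl).1] with z a b c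
  refine (hPQ _ a b).trans ?_
  rw [Pi.div_apply, P299G50.eval_aff hP, P299G50.eval_aff hQ,
    mul_div_mul_left _ _ (pow_ne_zero _ (inv_ne_zero c))]

end Vale.Agent.P280A
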